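import Mathlib

/-!
Definitions for the statement of P356 (entanglement bounds for gapped ground states on the
square lattice).
-/

namespace Vale.Agent.P356

open Matrix
open scoped ComplexOrder

/-- Sites of the box `Λ_L`. -/
abbrev Site (L : ℕ) : Type := Fin L × Fin L

/-- Classical configurations; they index the product basis of the tensor product of `ℂ^q`. -/
abbrev Conf (L q : ℕ) : Type := Site L → Fin q

/-- The `ℓ¹` distance of two sites. -/
def dist1 {L : ℕ} (x y : Site L) : ℕ := Nat.dist x.1 y.1 + Nat.dist x.2 y.2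

/-- `M` acts on the tensor factors in `X` and as the identity elsewhere: `M = m ⊗ 1`. -/
def ActsOn {L q : ℕ} (X : Finset (Site L)) (M : Matrix (Conf L q) (Conf L q) ℂ) : Prop :=
  ∃ m : Matrix (X → Fin q) (X → Fin q) ℂ, ∀ σ τ : Conf L q,
    M σ τ = if ∀ x, x ∉ X → σ x = τ x then m (fun x => σ x) (fun x => τ x) else 0

/-- The family `h` of local terms is admissible: each `h X` is Hermitian, acts on `X`, has
operator norm at most `J`, and vanishes unless `X` is nonempty of diameter at most `R`. -/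
def Admissible {L q : ℕ} (R : ℕ) (J : ℝ)
    (h : Finset (Site L) → Matrix (Conf L q) (Conf L q) ℂ) : Prop :=
  ∀ X, (h X).IsHermitian ∧ ActsOn X (h X) ∧
    ‖Matrix.toEuclideanCLM (n := Conf L q) (𝕜 := ℂ) (h X)‖ ≤ J ∧
    (h X ≠ 0 → X.Nonempty ∧ ∀ x ∈ X, ∀ y ∈ X, dist1 x y ≤ R)

/-- `Ω` is a unit eigenvector of `H` with eigenvalue `E₀`, and `H - E₀ ≥ Δ (1 - |Ω⟩⟨Ω|)`. -/
def GappedGround {L q : ℕ} (H : Matrix (Conf L q) (Conf L q) ℂ) (Δ : ℝ)
    (Ω : Conf L q → ℂ) : Prop :=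
  star Ω ⬝ᵥ Ω = 1 ∧ ∃ E₀ : ℝ, H *ᵥ Ω = (E₀ : ℂ) • Ω ∧
    (H - (E₀ : ℂ) • (1 : Matrix (Conf L q) (Conf L q) ℂ)
      - (Δ : ℂ) • (1 - vecMulVec Ω (star Ω))).PosSemidef

/-- Frustration-freeness: `Ω` is a ground state of every single term. -/
def FrustrationFree {L q : ℕ} (h : Finset (Site L) → Matrix (Conf L q) (Conf L q) ℂ)
    (Ω : Conf L q → ℂ) : Prop :=
  ∀ X, ∃ e : ℝ, h X *ᵥ Ω = (e : ℂ) • Ω ∧
    (h X - (e : ℂ) • (1 : Matrix (Conf L q) (Conf L q) ℂ)).PosSemidef

/-- The configuration equal to `a` on `A` and to `b` off `A`. -/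
def glue {ι : Type} [DecidableEq ι] {q : ℕ} (A : Finset ι) (a : A → Fin q)
    (b : {x // x ∉ A} → Fin q) : ι → Fin q :=
  fun x => if h : x ∈ A then a ⟨x, h⟩ else b ⟨x, h⟩

/-- The reduced density matrix on `A` of the pure state `Ω` (trace over the complement). -/
noncomputable def red {ι : Type} [Fintype ι] [DecidableEq ι] {q : ℕ} (A : Finset ι)
    (Ω : (ι → Fin q) → ℂ) : Matrix (A → Fin q) (A → Fin q) ℂ :=
  fun a a' => ∑ b : {x // x ∉ A} → Fin q, Ω (glue A a b) * star (Ω (glue A a' b))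

theorem red_isHermitian {ι : Type} [Fintype ι] [DecidableEq ι] {q : ℕ} (A : Finset ι)
    (Ω : (ι → Fin q) → ℂ) : (red A Ω).IsHermitian := by
  ext a a'
  simp [red, Matrix.conjTranspose_apply, mul_comm]

/-- The entanglement entropy `-Tr ρ_A log ρ_A = ∑ -λ log λ` over the eigenvalues of `ρ_A`. -/
noncomputable def entropy {ι : Type} [Fintype ι] [DecidableEq ι] {q : ℕ} (A : Finset ι)
    (Ω : (ι → Fin q) → ℂ) : ℝ :=
  ∑ i, Real.negMulLog ((red_isHermitian A Ω).eigenvalues i)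

/-- The size of the edge boundary: pairs `x ∈ A`, `y ∉ A` at distance one. -/
def bdry {L : ℕ} (A : Finset (Site L)) : ℕ :=
  (Finset.univ.filter fun e : Site L × Site L => e.1 ∈ A ∧ e.2 ∉ A ∧ dist1 e.1 e.2 = 1).card

end Vale.Agent.P356
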